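import Crest.Agent.X262.Rc72.Der
import Crest.Agent.X277.Lef.PModel

/-!
# Row 262, RC (helper72), part 2: rational curves on a model with a pluricanonical form

* `dT_eq_zero` : an embedding `F → L(t)` is constant in `t` if `P` has a pluricanonical form;
* `exists_hom` : a generic point of `P` gives an embedding of `F`;
* `Maps P f`   : the tuple of polynomials `f` maps the line into `P`; `NC f` : non-constant;
* `rc`         : the non-constant maps of degree `≤ d` land in one hypersurface section;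
* `rc'`        : the same with "not a constant vector times a polynomial".
-/

set_option autoImplicit false
set_option linter.style.haveILetI false

noncomputable section

namespace Crest.Agent.X262.Rc72

open Polynomial Module WithZero Crest.Agent.X277 Crest.Agent.X277.Lef
open scoped KaehlerDifferential Classical

variable {k F : Type} [Field k] [Field F] [Algebra k F]

theorem essFin (P : PModel k F) : Algebra.EssFiniteType k F := by
  haveI := P.isFractionRing 0
  haveI := P.finiteType 0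
  haveI := Algebra.EssFiniteType.of_isLocalization F (nonZeroDivisors (P.A 0))
  exact Algebra.EssFiniteType.comp k (P.A 0) F

section Core

variable {E : Type*} [Field E] [Algebra k E] {n : ℕ}

theorem chain (X : Jet.Fr k F (Fin n)) (φ : F →ₐ[k] E) (D : Derivation k E E) (f : F) :
    D (φ f) = ∑ i, D (φ (X.y i)) * φ (X.D i f) := by
  letI : Algebra F E := φ.toRingHom.toAlgebra
  haveI : IsScalarTower k F E := IsScalarTower.of_algebraMap_eq fun c => (φ.commutes c).symm
  have h1 := congrArg (D.compAlgebraMap F).liftKaehlerDifferential (X.d_eq f)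
  simp only [map_sum, map_smul, Derivation.liftKaehlerDifferential_comp_D] at h1
  refine h1.trans (Finset.sum_congr rfl fun i _ => ?_)
  rw [Algebra.smul_def, mul_comm]
  rfl

theorem jac_fr (X : Jet.Fr k F (Fin n)) (a : Fin n → F) :
    jac X.basis a = (Matrix.of fun i j => X.D i (a j)).det := by
  rw [jac_eq_toMatrix]
  congr 1
  ext i j
  rw [Basis.toMatrix_apply, X.d_eq]
  simp only [← X.basis_apply]
  rw [Basis.repr_sum_self]
  rfl

theorem jac_mul (X : Jet.Fr k F (Fin n)) (φ : F →ₐ[k] E) (D : Fin n → Derivation k E E)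
    (a : Fin n → F) : φ (jac X.basis a) * (Matrix.of fun l i => D l (φ (X.y i))).det =
      (Matrix.of fun l j => D l (φ (a j))).det := by
  rw [jac_fr, AlgHom.map_det, mul_comm, ← Matrix.det_mul]
  congr 1
  ext l j
  rw [Matrix.mul_apply, Matrix.of_apply, chain X φ]
  rfl

theorem mem_of_M (P : PModel k F) (X : Jet.Fr k F (Fin n)) (φ : F →ₐ[k] E)
    (D : Fin n → Derivation k E E) {i : Fin (P.N + 1)} {m : ℕ} (N : Submodule k E)
    (h : ∀ c ∈ P.A i, ∀ a : Fin m → Fin n → F, (∀ t l, a t l ∈ P.A i) →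
      φ c * ∏ t, (Matrix.of fun l j => D l (φ (a t j))).det ∈ N)
    {ω : F} (hω : ω ∈ P.M X.basis i m 0) :
    φ ω * (Matrix.of fun l i => D l (φ (X.y i))).det ^ m ∈ N := by
  rw [P.M_eq_span] at hω
  induction hω using Submodule.span_induction with
  | mem x hx =>
    obtain ⟨c, hc, a, ha, rfl⟩ := hx
    have := h c hc a ha
    simp only [← jac_mul X φ D (a _), Finset.prod_mul_distrib, Finset.prod_const, Finset.card_univ,
      Fintype.card_fin] at this
    simpa [mul_assoc] using this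
  | zero => simp
  | add x y _ _ hx hy => rw [map_add, add_mul]; exact add_mem hx hy
  | smul c x _ hx => rw [map_smul, smul_mul_assoc]; exact N.smul_mem c hx

end Core

section Line

variable {L : Type} [Field L] [Algebra k L]

local notation "ι" => algebraMap L[X] (RatFunc L)
local notation "vi" => RatFunc.inftyValuation L

theorem essFin_ratFunc [Algebra.EssFiniteType k L] : Algebra.EssFiniteType k (RatFunc L) := by
  haveI := Algebra.EssFiniteType.of_isLocalization (RatFunc L) (nonZeroDivisors L[X])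
  haveI := Algebra.EssFiniteType.comp k L L[X]
  exact Algebra.EssFiniteType.comp k L[X] (RatFunc L)

/-- a frame of good derivations which contains `∂ / ∂t` -/
theorem exists_frame [CharZero k] [Algebra.EssFiniteType k L] {n : ℕ} (X : Jet.Fr k F (Fin n))
    (φ : F →ₐ[k] RatFunc L) {x : F} (hx : dT k L (φ x) ≠ 0) :
    ∃ D : Fin n → Derivation k (RatFunc L) (RatFunc L), (∀ l, Good (D l)) ∧
      (Matrix.of fun l i => D l (φ (X.y i))).det ≠ 0 ∧ ∃ l, ∀ f, D l (φ f) = dT k L (φ f) := by
  letI : Algebra F (RatFunc L) := φ.toRingHom.toAlgebra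
  haveI : IsScalarTower k F (RatFunc L) :=
    IsScalarTower.of_algebraMap_eq fun c => (φ.commutes c).symm
  haveI : CharZero F := charZero_of_injective_algebraMap (algebraMap k F).injective
  haveI := essFin_ratFunc (k := k) (L := L)
  haveI : Algebra.EssFiniteType F (RatFunc L) := Algebra.EssFiniteType.of_comp k F (RatFunc L)
  let ρ : Derivation k (RatFunc L) (RatFunc L) →ₗ[RatFunc L] (Fin n → RatFunc L) :=
    { toFun := fun D i => D (φ (X.y i))
      map_add' := fun _ _ => rfl
      map_smul' := fun _ _ => rfl }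
  have htop : ⊤ ≤ Submodule.span (RatFunc L) (ρ '' {D | Good D}) := by
    rw [← (Pi.basisFun (RatFunc L) (Fin n)).span_eq, Submodule.span_le]
    rintro _ ⟨j, rfl⟩
    obtain ⟨D, hD⟩ := Gj.exists_der_ext (Ω := RatFunc L) (X.D j)
    have : Pi.basisFun (RatFunc L) (Fin n) j = ρ D := by
      ext i
      refine Eq.trans ?_ (hD (X.y i)).symm
      rw [X.dual, Pi.basisFun_apply, Pi.single_apply]
      by_cases h : i = j
      · simp [h]
      · simp [h, Ne.symm h]
    rw [this]
    exact Submodule.apply_mem_span_image_of_mem_span ρ (span_good D)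
  have h0 : ρ (dT k L) ≠ 0 := fun h => hx (by
    rw [chain X φ]
    exact Finset.sum_eq_zero fun i _ => by
      rw [show dT k L (φ (X.y i)) = 0 from congrFun h i, zero_mul])
  have hs : LinearIndepOn (RatFunc L) id {ρ (dT k L)} := LinearIndepOn.singleton h0
  have hst : {ρ (dT k L)} ⊆ ρ '' {D | Good D} := by
    rintro _ rfl
    exact ⟨_, good_dT, rfl⟩
  let B := Basis.extendLe hs hst htop
  haveI : Finite (hs.extend hst) := Module.Finite.finite_basis B
  haveI := Fintype.ofFinite (hs.extend hst)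
  let e : hs.extend hst ≃ Fin n := Fintype.equivFinOfCardEq (by
    rw [← finrank_eq_card_basis B]; simp)
  let B' := B.reindex e
  have h1 : ∀ l, B' l ∈ ρ '' {D | Good D} := fun l =>
    Basis.extendLe_subset hs hst htop ⟨e.symm l, (B.reindex_apply e l).symm⟩
  choose D hD hB using h1
  refine ⟨D, hD, ?_, ?_⟩
  · have h2 := ((Pi.basisFun (RatFunc L) (Fin n)).isUnit_det B').ne_zero
    rw [Pi.basisFun_det_apply] at h2
    convert h2 using 2
    ext l i
    exact congrFun (hB l) i
  · obtain ⟨s, hs'⟩ := Basis.subset_extendLe hs hst htop rfl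
    refine ⟨e s, fun f => ?_⟩
    have h3 : ρ (D (e s)) = ρ (dT k L) := by
      rw [hB, Basis.reindex_apply, Equiv.symm_apply_apply]
      exact hs'
    rw [chain X φ, chain X φ (dT k L)]
    exact Finset.sum_congr rfl fun i _ => congrArg (· * _) (congrFun h3 i)

theorem chart_le {E : Type*} [Field E] [Algebra k E] (P : PModel k F) (φ : F →ₐ[k] E)
    {i : Fin (P.N + 1)} (S : Subalgebra k E) (h : ∀ j, φ (P.y j / P.y i) ∈ S) {c : F}
    (hc : c ∈ P.A i) : φ c ∈ S := by
  have : P.A i ≤ S.comap φ := Algebra.adjoin_le (by rintro _ ⟨j, rfl⟩; exact h j)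
  exact this hc

theorem vi_alg (c : k) : vi (algebraMap k (RatFunc L) c) ≤ 1 := by
  rw [IsScalarTower.algebraMap_apply k L[X] (RatFunc L), ← map_one vi, ← map_one ι]
  refine vi_le_of_degree ?_
  rw [degree_one]
  exact degree_C_le

/-- **a family of rational curves on a model with a pluricanonical form does not dominate** -/
theorem dT_eq_zero [CharZero k] [Algebra.EssFiniteType k L] (P : PModel k F) {n : ℕ}
    (b : Basis (Fin n) F Ω[F⁄k]) {m : ℕ} (hm : 0 < m) {ω : F} (hω : ω ∈ P.H b m 0) (h0 : ω ≠ 0)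
    (φ : F →ₐ[k] RatFunc L) (f : Fin (P.N + 1) → L[X]) (hf : ∀ i, f i ≠ 0)
    (hφ : ∀ i j, φ (P.y j / P.y i) = ι (f j) / ι (f i)) (x : F) : dT k L (φ x) = 0 := by
  by_contra hx
  haveI := essFin P
  obtain rfl : n = finrank F Ω[F⁄k] := by rw [finrank_eq_card_basis b, Fintype.card_fin]
  obtain ⟨X⟩ := Jet.exists_fr k F
  rw [P.H_change b X.basis, mem_span_singleton_mul (pow_ne_zero _ (det_basis_ne_zero _ _))] at hω
  have h0' := mul_ne_zero (inv_ne_zero (pow_ne_zero m (det_basis_ne_zero b X.basis))) h0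
  generalize (b.det X.basis ^ m)⁻¹ * ω = ω' at hω h0'
  obtain ⟨D, hD, hdet, l₀, hl⟩ := exists_frame X φ hx
  obtain ⟨g, hg, hg1⟩ := Finset.extract_gcd f (Finset.univ_nonempty (α := Fin (P.N + 1)))
  have hg0 : ∀ i, g i ≠ 0 := fun i h => hf i (by rw [hg i (Finset.mem_univ _), h, mul_zero])
  have hc0 : ι (Finset.univ.gcd f) ≠ 0 := by
    intro h
    have h' : Finset.univ.gcd f = 0 := by simpa using h
    exact hf 0 (by rw [hg 0 (Finset.mem_univ _), h', zero_mul])
  have hφ' : ∀ i j, φ (P.y j / P.y i) = ι (g j) / ι (g i) := fun i j => by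
    rw [hφ]
    conv_lhs => rw [hg i (Finset.mem_univ _), hg j (Finset.mem_univ _), map_mul, map_mul]
    exact mul_div_mul_left _ _ hc0
  obtain ⟨p, hp⟩ := exists_poly (k := k) hg1
    (x := φ ω' * (Matrix.of fun l i => D l (φ (X.y i))).det ^ m) fun i _ => by
      have hA : ∀ c ∈ P.A i, φ c ∈ Loc k (g i) := fun c hc =>
        chart_le P φ _ (fun j => hφ' i j ▸ div_mem_Loc (hg0 i) _) hc
      refine mem_of_M P X φ D (Subalgebra.toSubmodule (Loc k (g i))) (fun c hc a ha => ?_)
        (P.H_le_M _ i _ _ hω)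
      refine (Loc k (g i)).mul_mem (hA c hc) (prod_mem fun t _ => ?_)
      rw [Matrix.det_apply']
      exact sum_mem fun π _ => mul_mem (intCast_mem _ _)
        (prod_mem fun j _ => (hD _).mem_Loc (hA _ (ha _ _)))
  have hp0 : p ≠ 0 := by
    rintro rfl
    exact mul_ne_zero ((_root_.map_ne_zero φ).2 h0') (pow_ne_zero m hdet) (hp.trans (map_zero _))
  obtain ⟨i, -, hi⟩ := Finset.exists_max_image Finset.univ (fun i => (g i).degree)
    Finset.univ_nonempty
  let S : Subalgebra k (RatFunc L) :=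
    { (vi).integer with algebraMap_mem' := vi_alg }
  let N : Submodule k (RatFunc L) :=
    { carrier := {z | vi z < 1}
      add_mem' := fun ha hb => Valuation.map_add_lt vi ha hb
      zero_mem' := by simp
      smul_mem' := fun c z hz => by
        change vi (c • z) < 1
        rw [Algebra.smul_def, map_mul]
        exact (mul_le_of_le_one_left' (vi_alg c)).trans_lt hz }
  have hA : ∀ c ∈ P.A i, vi (φ c) ≤ 1 := fun c hc =>
    chart_le P φ S (fun j => by
      change vi _ ≤ 1
      rw [hφ', map_div₀]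
      exact div_le_one_of_le₀ (vi_le_of_degree (hi j (Finset.mem_univ _))) zero_le) hc
  have h1 : vi (φ ω' * (Matrix.of fun l i => D l (φ (X.y i))).det ^ m) < 1 := by
    refine mem_of_M P X φ D N (fun c hc a ha => ?_) (P.H_le_M _ i _ _ hω)
    change vi _ < 1
    have h2 : ∀ t, vi (Matrix.of fun l j => D l (φ (a t j))).det < 1 := fun t =>
      v_det_lt _ _ (fun l j => ((hD l).v_le _).trans (hA _ (ha _ _))) l₀ fun j => by
        rw [Matrix.of_apply, hl]
        exact v_dT_lt (hA _ (ha _ _))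
    rw [map_mul, map_prod, ← Finset.mul_prod_erase _ _ (Finset.mem_univ ⟨0, hm⟩)]
    refine (mul_le_of_le_one_left' (hA c hc)).trans_lt ?_
    exact (mul_le_of_le_one_right' (Finset.prod_le_one' fun t _ => (h2 t).le)).trans_lt (h2 _)
  exact absurd (hp ▸ one_le_vi hp0) (not_le.2 h1)

end Line

/-! ### generic points -/

theorem aeval_mul {σ B : Type*} [CommRing B] [Algebra k B] {q : MvPolynomial σ k} {d : ℕ}
    (h : q.IsHomogeneous d) (c : B) (v : σ → B) :
    MvPolynomial.aeval (fun j => c * v j) q = c ^ d * MvPolynomial.aeval v q := by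
  rw [MvPolynomial.aeval_def, MvPolynomial.aeval_def, MvPolynomial.eval₂_eq, MvPolynomial.eval₂_eq,
    Finset.mul_sum]
  refine Finset.sum_congr rfl fun e he => ?_
  have h1 : ∑ i ∈ e.support, e i = d := by
    have h2 := h (MvPolynomial.mem_support_iff.1 he)
    rw [← h2, Finsupp.weight_apply, Finsupp.sum]
    simp
  simp only [mul_pow, Finset.prod_mul_distrib, Finset.prod_pow_eq_pow_sum, h1]
  ring

theorem exists_hmg {σ : Type*} (i : σ) (q : MvPolynomial σ k) : ∃ (q' : MvPolynomial σ k) (d : ℕ),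
    q'.IsHomogeneous d ∧ ∀ (B : Type) [Field B] [Algebra k B] (v : σ → B), v i ≠ 0 →
      (MvPolynomial.aeval v q' = 0 ↔ MvPolynomial.aeval (fun j => v j / v i) q = 0) := by
  have hh : (∑ e ∈ Finset.range (q.totalDegree + 1), MvPolynomial.X i ^ (q.totalDegree - e) *
      MvPolynomial.homogeneousComponent e q).IsHomogeneous q.totalDegree := by
    refine MvPolynomial.IsHomogeneous.sum _ _ _ fun e he => ?_
    have h1 := ((MvPolynomial.isHomogeneous_X k i).pow (q.totalDegree - e)).mul
      (MvPolynomial.homogeneousComponent_isHomogeneous e q)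
    rwa [one_mul, Nat.sub_add_cancel (Nat.lt_succ_iff.1 (Finset.mem_range.1 he))] at h1
  refine ⟨_, _, hh, fun B _ _ v hv => ?_⟩
  have h1 := aeval_mul hh (v i) fun j => v j / v i
  simp only [mul_div_cancel₀ _ hv] at h1
  rw [h1, mul_eq_zero, or_iff_right (pow_ne_zero _ hv)]
  conv_rhs => rw [← MvPolynomial.sum_homogeneousComponent q]
  simp [div_self hv]

/-- a generic point of `P` with values in `E` gives an embedding `F → E` -/
theorem exists_hom (P : PModel k F) {E : Type} [Field E] [Algebra k E] (z : Fin (P.N + 1) → E)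
    (h : ∀ (q : MvPolynomial (Fin (P.N + 1)) k) (d : ℕ), q.IsHomogeneous d →
      (MvPolynomial.aeval z q = 0 ↔ MvPolynomial.aeval P.y q = 0)) :
    (∀ i, z i ≠ 0) ∧ ∃ φ : F →ₐ[k] E, ∀ i j, φ (P.y j / P.y i) = z j / z i := by
  have hz : ∀ i, z i ≠ 0 := fun i hi => P.y_ne i (by
    simpa [hi] using h _ 1 (MvPolynomial.isHomogeneous_X k i))
  refine ⟨hz, ?_⟩
  haveI := P.isFractionRing 0
  have hk : ∀ q : MvPolynomial (Fin (P.N + 1)) k,
      MvPolynomial.aeval (fun j => z j / z 0) q = 0 ↔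
        MvPolynomial.aeval (fun j => P.y j / P.y 0) q = 0 := fun q => by
    obtain ⟨q', d, hq, h'⟩ := exists_hmg 0 q
    rw [← h' E z (hz 0), ← h' F P.y (P.y_ne 0), h q' d hq]
  let α : MvPolynomial (Fin (P.N + 1)) k →ₐ[k] P.A 0 :=
    MvPolynomial.aeval fun j => ⟨P.y j / P.y 0, div_mem_chart P.y 0 j⟩
  have hα : ∀ q, (α q : F) = MvPolynomial.aeval (fun j => P.y j / P.y 0) q := fun q =>
    MvPolynomial.comp_aeval_apply _ (P.A 0).val q
  have hs : Function.Surjective α := fun x => by
    have hx : x.1 ∈ (MvPolynomial.aeval (R := k) fun j => P.y j / P.y 0).range := by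
      rw [← Algebra.adjoin_range_eq_range_aeval]
      exact x.2
    obtain ⟨q, hq⟩ := hx
    exact ⟨q, Subtype.ext ((hα q).trans hq)⟩
  let ψ : P.A 0 →ₐ[k] E := AlgHom.liftOfSurjective α hs (MvPolynomial.aeval fun j => z j / z 0)
    fun q hq => (hk q).2 ((hα q).symm.trans (congrArg Subtype.val hq))
  have hψ : ∀ q, ψ (α q) = MvPolynomial.aeval (fun j => z j / z 0) q :=
    AlgHom.liftOfSurjective_apply _ _ _ _
  have hi : Function.Injective ψ := (injective_iff_map_eq_zero _).2 fun x hx => by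
    obtain ⟨q, rfl⟩ := hs x
    exact Subtype.ext ((hα q).trans ((hk q).1 ((hψ q).symm.trans hx)))
  let φ : F →ₐ[k] E := IsFractionRing.liftAlgHom (A := P.A 0) hi
  have h1 : ∀ j, φ (P.y j / P.y 0) = z j / z 0 := fun j => by
    have h2 := IsFractionRing.lift_algebraMap (K := F) (g := (ψ : P.A 0 →+* E)) hi
      (α (MvPolynomial.X j))
    have h3 := (hψ (MvPolynomial.X j)).trans (MvPolynomial.aeval_X _ _)
    rw [← h3]
    refine Eq.trans ?_ h2
    exact congrArg φ ((hα _).trans (MvPolynomial.aeval_X _ _)).symm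
  refine ⟨φ, fun i j => ?_⟩
  rw [← div_div_div_cancel_right₀ (P.y_ne 0), map_div₀, h1, h1, div_div_div_cancel_right₀ (hz 0)]

/-! ### the theorem -/

/-- the tuple `f` maps the line into `P` -/
def Maps (P : PModel k F) {A : Type*} [CommRing A] [Algebra k A] (f : Fin (P.N + 1) → A[X]) :
    Prop :=
  ∀ (q : MvPolynomial (Fin (P.N + 1)) k) (d : ℕ), q.IsHomogeneous d →
    MvPolynomial.aeval P.y q = 0 → MvPolynomial.aeval f q = 0

/-- the tuple `f` defines a non-constant map to projective space -/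
def NC {σ A : Type*} [CommRing A] (f : σ → A[X]) : Prop := ∃ i j, wronskian (f i) (f j) ≠ 0

/-- a tuple with vanishing Wronskians is a constant vector times a polynomial -/
theorem exists_const_of_not_NC {σ L : Type*} [Fintype σ] [Field L] [CharZero L] {f : σ → L[X]}
    (h : ¬ NC f) : ∃ (c : σ → L) (g : L[X]), ∀ i, f i = C (c i) * g := by
  by_cases h0 : ∀ i, f i = 0
  · exact ⟨0, 0, fun i => by simp [h0]⟩
  push Not at h0
  obtain ⟨i, hi⟩ := h0
  have hw : ∀ j, wronskian (f i) (f j) = 0 := fun j => by_contra fun h' => h ⟨i, j, h'⟩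
  have : ∀ j, ∃ c : L, f j = C c * f i := fun j => by
    obtain ⟨a, b, ha, hb, hab⟩ := extract_gcd (f i) (f j)
    have hg : gcd (f i) (f j) ≠ 0 := fun h0 => hi (by rw [ha, h0, zero_mul])
    have h1 : wronskian a b = 0 := by
      have h2 := hw j
      generalize gcd (f i) (f j) = g at ha hb hg
      rw [ha, hb] at h2
      have h3 : wronskian (g * a) (g * b) = g * g * wronskian a b := by
        simp only [wronskian, derivative_mul]
        ring
      exact (mul_eq_zero.1 (h3.symm.trans h2)).resolve_left (mul_ne_zero hg hg)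
    obtain ⟨h2, h3⟩ := ((gcd_isUnit_iff a b).1 hab).wronskian_eq_zero_iff.1 h1
    have ha' := eq_C_of_derivative_eq_zero h2
    have hb' := eq_C_of_derivative_eq_zero h3
    have ha0 : a.coeff 0 ≠ 0 := fun h0 => hi (by rw [ha, ha', h0, C_0, mul_zero])
    refine ⟨b.coeff 0 / a.coeff 0, ?_⟩
    generalize gcd (f i) (f j) = g at ha hb
    rw [ha, hb, ha', hb', coeff_C_zero, coeff_C_zero, mul_left_comm, ← C_mul,
      div_mul_cancel₀ _ ha0]
  choose c hc using this
  exact ⟨c, f i, hc⟩

theorem exists_form [CharZero k] {L : Type} [Field L] [Algebra k L] [Algebra.EssFiniteType k L]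
    (P : PModel k F) {n : ℕ} (b : Basis (Fin n) F Ω[F⁄k]) {m : ℕ} (hm : 0 < m) {ω : F}
    (hω : ω ∈ P.H b m 0) (h0 : ω ≠ 0) {f : Fin (P.N + 1) → L[X]} (hf : Maps P f) (hn : NC f) :
    ∃ (q : MvPolynomial (Fin (P.N + 1)) k) (d : ℕ), q.IsHomogeneous d ∧
      MvPolynomial.aeval P.y q ≠ 0 ∧ MvPolynomial.aeval f q = 0 := by
  by_contra hc
  push Not at hc
  let ι : L[X] →ₐ[k] RatFunc L := IsScalarTower.toAlgHom k L[X] (RatFunc L)
  have hι : Function.Injective ι := IsFractionRing.injective L[X] (RatFunc L)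
  obtain ⟨hz, φ, hφ⟩ := exists_hom P (fun i => ι (f i)) fun q d hq => by
    rw [← MvPolynomial.comp_aeval_apply, map_eq_zero_iff _ hι]
    exact ⟨fun h => by_contra fun h' => hc q d hq h' h, hf q d hq⟩
  obtain ⟨i, j, hij⟩ := hn
  have h1 := dT_eq_zero P b hm hω h0 φ f (fun i h => hz i (by rw [h, map_zero])) hφ (P.y j / P.y i)
  rw [hφ] at h1
  change dT k L (algebraMap _ _ (f j) / algebraMap _ _ (f i)) = 0 at h1
  rw [Derivation.leibniz_div, dT_apply, dT_apply, smul_eq_mul, smul_eq_mul, smul_eq_mul,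
    ← map_mul, ← map_mul, ← map_sub] at h1
  replace h1 := (mul_eq_zero.1 h1).resolve_left (pow_ne_zero _ (inv_ne_zero (hz i)))
  refine hij (hι (Eq.trans ?_ (h1.trans (map_zero ι).symm)))
  rw [wronskian, mul_comm (f j)]
  rfl

/-- **RC**: on a model with a nonzero pluricanonical form, all non-constant rational curves of
degree `≤ d` lie in one hypersurface section -/
theorem rc [CharZero k] (P : PModel k F) {n : ℕ} (b : Basis (Fin n) F Ω[F⁄k]) {m : ℕ} (hm : 0 < m)
    {ω : F} (hω : ω ∈ P.H b m 0) (h0 : ω ≠ 0) (d : ℕ) :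
    ∃ (q : MvPolynomial (Fin (P.N + 1)) k) (e : ℕ), q.IsHomogeneous e ∧
      MvPolynomial.aeval P.y q ≠ 0 ∧ ∀ f : Fin (P.N + 1) → k[X], (∀ i, (f i).natDegree ≤ d) →
        Maps P f → NC f → MvPolynomial.aeval f q = 0 := by
  let R := MvPolynomial (Fin (P.N + 1) × Fin (d + 1)) k
  let u : Fin (P.N + 1) → R[X] := fun i => ∑ j : Fin (d + 1), monomial j (MvPolynomial.X (i, j))
  let s : (Fin (P.N + 1) → k[X]) → (R →ₐ[k] k) := fun f =>
    MvPolynomial.aeval fun x => (f x.1).coeff x.2
  have hs : ∀ f : Fin (P.N + 1) → k[X], (∀ i, (f i).natDegree ≤ d) →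
      (fun i => mapAlgHom (s f) (u i)) = f := fun f hf => by
    ext1 i
    conv_rhs => rw [(f i).as_sum_range' (d + 1) (Nat.lt_succ_of_le (hf i)), Finset.sum_range]
    simp only [u, map_sum, coe_mapAlgHom, map_monomial]
    exact Finset.sum_congr rfl fun j _ => congrArg _ (MvPolynomial.aeval_X _ _)
  have hco : ∀ {A : Type} [CommRing A] [Algebra k A] (π : R →ₐ[k] A)
      (q : MvPolynomial (Fin (P.N + 1)) k), MvPolynomial.aeval (fun i => mapAlgHom π (u i)) q = 0 ↔
        ∀ a, π ((MvPolynomial.aeval u q).coeff a) = 0 := fun π q => by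
    rw [← MvPolynomial.comp_aeval_apply, Polynomial.ext_iff]
    simp
  have hwr : ∀ {A : Type} [CommRing A] [Algebra k A] (π : R →ₐ[k] A) i j,
      wronskian (mapAlgHom π (u i)) (mapAlgHom π (u j)) = 0 ↔
        ∀ a, π ((wronskian (u i) (u j)).coeff a) = 0 := fun π i j => by
    have : wronskian (mapAlgHom π (u i)) (mapAlgHom π (u j)) =
        mapAlgHom π (wronskian (u i) (u j)) := by simp [wronskian]
    rw [this, Polynomial.ext_iff]
    simp
  let G := {f : Fin (P.N + 1) → k[X] // (∀ i, (f i).natDegree ≤ d) ∧ Maps P f ∧ NC f}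
  let J : Ideal R := ⨅ f : G, RingHom.ker (s f.1)
  have key : ∀ p ∈ J.minimalPrimes, ∃ (q : MvPolynomial (Fin (P.N + 1)) k) (e : ℕ),
      q.IsHomogeneous e ∧ MvPolynomial.aeval P.y q ≠ 0 ∧
        ∀ f : G, p ≤ RingHom.ker (s f.1) → MvPolynomial.aeval f.1 q = 0 := by
    intro p hp
    by_cases hex : ∃ f : G, p ≤ RingHom.ker (s f.1)
    swap
    · exact ⟨1, 0, MvPolynomial.isHomogeneous_one _ _, by simp, fun f hf => absurd ⟨f, hf⟩ hex⟩
    obtain ⟨f₀, hf₀⟩ := hex
    haveI := hp.1.1
    let L := FractionRing (R ⧸ p)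
    haveI := Algebra.EssFiniteType.of_isLocalization L (nonZeroDivisors (R ⧸ p))
    haveI := Algebra.EssFiniteType.comp k (R ⧸ p) L
    let π : R →ₐ[k] L := (IsScalarTower.toAlgHom k (R ⧸ p) L).comp (Ideal.Quotient.mkₐ k p)
    have hπ : ∀ r, π r = 0 ↔ r ∈ p := fun r =>
      (map_eq_zero_iff _ (IsFractionRing.injective (R ⧸ p) L)).trans Ideal.Quotient.eq_zero_iff_mem
    obtain ⟨q, e, hq, hy, hq0⟩ := exists_form P b hm hω h0 (f := fun i => mapAlgHom π (u i))
      (fun q e hq hy => (hco π q).2 fun a => (hπ _).2 (hp.1.2 ((Submodule.mem_iInf _).2 fun f =>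
        (hco (s f.1) q).1 (by rw [hs f.1 f.2.1]; exact f.2.2.1 q e hq hy) a)))
      (by
        obtain ⟨i, j, hij⟩ := f₀.2.2.2
        refine ⟨i, j, fun h => hij ?_⟩
        rw [← congrFun (hs f₀.1 f₀.2.1) i, ← congrFun (hs f₀.1 f₀.2.1) j]
        exact (hwr _ i j).2 fun a => hf₀ ((hπ _).1 ((hwr π i j).1 h a)))
    refine ⟨q, e, hq, hy, fun f hf => ?_⟩
    rw [← hs f.1 f.2.1]
    exact (hco _ q).2 fun a => hf ((hπ _).1 ((hco π q).1 hq0 a))
  choose! q e hq hy hq0 using key
  have hfin := J.finite_minimalPrimes_of_isNoetherianRing R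
  refine ⟨∏ p ∈ hfin.toFinset, q p, ∑ p ∈ hfin.toFinset, e p,
    MvPolynomial.IsHomogeneous.prod _ _ _ fun p hp => hq p (hfin.mem_toFinset.1 hp), ?_,
    fun f h1 h2 h3 => ?_⟩
  · rw [map_prod]
    exact Finset.prod_ne_zero_iff.2 fun p hp => hy p (hfin.mem_toFinset.1 hp)
  · haveI := RingHom.ker_isPrime (s f)
    obtain ⟨p, hp, hle⟩ := Ideal.exists_minimalPrimes_le
      (iInf_le (fun f : G => RingHom.ker (s f.1)) ⟨f, h1, h2, h3⟩)
    rw [map_prod]
    exact Finset.prod_eq_zero (hfin.mem_toFinset.2 hp) (hq0 p hp ⟨f, h1, h2, h3⟩ hle)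

theorem rc' [CharZero k] (P : PModel k F) {n : ℕ} (b : Basis (Fin n) F Ω[F⁄k]) {m : ℕ} (hm : 0 < m)
    {ω : F} (hω : ω ∈ P.H b m 0) (h0 : ω ≠ 0) (d : ℕ) :
    ∃ (q : MvPolynomial (Fin (P.N + 1)) k) (e : ℕ), q.IsHomogeneous e ∧
      MvPolynomial.aeval P.y q ≠ 0 ∧ ∀ f : Fin (P.N + 1) → k[X], (∀ i, (f i).natDegree ≤ d) →
        Maps P f → MvPolynomial.aeval f q = 0 ∨
          ∃ (c : Fin (P.N + 1) → k) (g : k[X]), ∀ i, f i = C (c i) * g := by
  obtain ⟨q, e, hq, hy, h⟩ := rc P b hm hω h0 d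
  exact ⟨q, e, hq, hy, fun f h1 h2 => (em (NC f)).imp (h f h1 h2) exists_const_of_not_NC⟩

end Crest.Agent.X262.Rc72
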