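import Crest.Agent.X277.Jet.Fr
import Crest.Agent.X277.Gj.Alg

/-!
# Row 262, RC (helper72), part 1: derivations of `L(t)`

* `Good D`      : `D` extends a derivation of `L[t]` which does not raise degrees;
* `dT`          : the derivation `∂ / ∂t`;
* `span_good`   : good derivations span all derivations;
* `Loc g`       : the ring `L[t][1/g]`, stable under good derivations;
* `Good.v_le`, `v_dT_lt` : the place at infinity.
-/

set_option autoImplicit false
set_option linter.style.haveILetI false

noncomputable section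

namespace Crest.Agent.X262.Rc72

open Polynomial Module WithZero
open scoped KaehlerDifferential Classical

section Ext

variable {k R E : Type*} [Field k] [CommRing R] [Field E] [Algebra k R] [Algebra k E]
  [Algebra R E] [IsScalarTower k R E] [IsFractionRing R E]

/-- derivations extend to the field of fractions -/
theorem exists_ext (D : Derivation k R R) :
    ∃ D' : Derivation k E E, ∀ r, D' (algebraMap R E r) = algebraMap R E (D r) := by
  haveI := Algebra.FormallyEtale.of_isLocalization (Rₘ := E) (nonZeroDivisors R)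
  have hb := KaehlerDifferential.isBaseChange_of_formallyEtale k R E
  let g : Ω[R⁄k] →ₗ[R] E := ((Algebra.linearMap R E).compDer D).liftKaehlerDifferential
  refine ⟨(hb.lift g).compDer (KaehlerDifferential.D k E), fun r => ?_⟩
  change hb.lift g (KaehlerDifferential.D k E (algebraMap R E r)) = _
  rw [← KaehlerDifferential.map_D k k R E, hb.lift_eq]
  simp only [g, Derivation.liftKaehlerDifferential_comp_D]
  rfl

omit [Algebra k R] [IsScalarTower k R E] in
theorem der_eq_zero {Z : Derivation k E E} (h : ∀ r, Z (algebraMap R E r) = 0) : Z = 0 := by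
  ext z
  obtain ⟨x, y, -, rfl⟩ := IsFractionRing.div_surjective (A := R) z
  simp [Derivation.leibniz_div, h]

end Ext

variable {k L : Type*} [Field k] [Field L] [Algebra k L]

local notation "ι" => algebraMap L[X] (RatFunc L)

/-- `D` extends a derivation of `L[t]` which does not raise degrees -/
def Good (D : Derivation k (RatFunc L) (RatFunc L)) : Prop :=
  ∀ p : L[X], ∃ q : L[X], D (ι p) = ι q ∧ q.degree ≤ p.degree

/-- a derivation acting on the coefficients -/
def pco (Z : Derivation k L L) : Derivation k L[X] L[X] :=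
  PolynomialModule.equivPolynomialSelf.compDer Z.mapCoeffs

theorem coeff_pco (Z : Derivation k L L) (p : L[X]) (i : ℕ) : (pco Z p).coeff i = Z (p.coeff i) :=
  rfl

theorem degree_pco (Z : Derivation k L L) (p : L[X]) : (pco Z p).degree ≤ p.degree := by
  refine (degree_le_iff_coeff_zero _ _).2 fun m hm => ?_
  rw [coeff_pco, coeff_eq_zero_of_degree_lt hm, map_zero]

variable (k L) in
/-- `∂ / ∂t` -/
def dT : Derivation k (RatFunc L) (RatFunc L) :=
  (exists_ext (E := RatFunc L)
    ((derivative' : Derivation L L[X] L[X]).restrictScalars k)).choose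

theorem dT_apply (p : L[X]) : dT k L (ι p) = ι (derivative p) :=
  (exists_ext (E := RatFunc L)
    ((derivative' : Derivation L L[X] L[X]).restrictScalars k)).choose_spec p

theorem good_dT : Good (dT k L) := fun p => ⟨_, dT_apply p, degree_derivative_le⟩

/-- good derivations span all derivations -/
theorem span_good [Algebra.EssFiniteType k L] (D : Derivation k (RatFunc L) (RatFunc L)) :
    D ∈ Submodule.span (RatFunc L) {D : Derivation k (RatFunc L) (RatFunc L) | Good D} := by
  obtain ⟨Y⟩ := X277.Jet.exists_fr k L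
  choose Z hZ using fun i => exists_ext (E := RatFunc L) (pco (Y.D i))
  have hC : ∀ c : L, ι (C c) = algebraMap L (RatFunc L) c := fun c => by
    rw [IsScalarTower.algebraMap_apply L L[X] (RatFunc L)]; rfl
  have hZC : ∀ i (c : L), Z i (ι (C c)) = ι (C (Y.D i c)) := fun i c => by
    rw [hZ]
    congr 1
    ext m
    rw [coeff_pco, coeff_C, coeff_C]
    split_ifs <;> simp
  have hZX : ∀ i, Z i (ι X) = 0 := fun i => by
    rw [hZ, show pco (Y.D i) (X : L[X]) = 0 from ?_, map_zero]
    ext m
    rw [coeff_pco, coeff_X, coeff_zero]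
    split_ifs <;> simp
  have key : D - (D (ι X) • dT k L + ∑ i, D (ι (C (Y.y i))) • Z i) = 0 := by
    set D' := D - (D (ι X) • dT k L + ∑ i, D (ι (C (Y.y i))) • Z i) with hD'
    have h1 : D' (ι X) = 0 := by
      simp [hD', X277.Jet.der_sum, hZX, dT_apply, -RatFunc.algebraMap_X]
    have h2 : ∀ c : L, D' (ι (C c)) = 0 := fun c => by
      have h3 := congrArg (D.compAlgebraMap L).liftKaehlerDifferential (Y.d_eq c)
      simp only [map_sum, map_smul, Derivation.liftKaehlerDifferential_comp_D] at h3
      have h4 : D (ι (C c)) = ∑ i, D (ι (C (Y.y i))) * ι (C (Y.D i c)) := by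
        rw [hC]
        refine h3.trans (Finset.sum_congr rfl fun i _ => ?_)
        rw [hC, hC, Algebra.smul_def, mul_comm]
        rfl
      simp only [hD', Derivation.sub_apply, Derivation.add_apply, Derivation.smul_apply,
        X277.Jet.der_sum, hZC, dT_apply, derivative_C, map_zero, smul_eq_mul, mul_zero, zero_add]
      rw [h4, sub_self]
    refine der_eq_zero (R := L[X]) fun p => ?_
    induction p using Polynomial.induction_on with
    | C a => exact h2 a
    | add p q hp hq => rw [map_add, map_add, hp, hq, add_zero]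
    | monomial n a h =>
      rw [pow_succ, ← mul_assoc, map_mul, Derivation.leibniz, h, h1, smul_zero, smul_zero, add_zero]
  rw [sub_eq_zero.1 key]
  refine add_mem (Submodule.smul_mem _ _ (Submodule.subset_span good_dT))
    (Submodule.sum_mem _ fun i _ => Submodule.smul_mem _ _ (Submodule.subset_span fun p => ?_))
  exact ⟨_, hZ i p, degree_pco _ p⟩

/-! ### finite places -/

variable (k) in
/-- the ring `L[t][1/g]` -/
def Loc (g : L[X]) : Subalgebra k (RatFunc L) where
  carrier := {x | ∃ (a : ℕ) (p : L[X]), ι g ^ a * x = ι p}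
  mul_mem' := by
    rintro x y ⟨a, p, hp⟩ ⟨b, q, hq⟩
    exact ⟨a + b, p * q, by rw [map_mul, ← hp, ← hq]; ring⟩
  add_mem' := by
    rintro x y ⟨a, p, hp⟩ ⟨b, q, hq⟩
    exact ⟨a + b, g ^ b * p + g ^ a * q, by
      rw [map_add, map_mul, map_mul, map_pow, map_pow, ← hp, ← hq]; ring⟩
  algebraMap_mem' c := ⟨0, algebraMap k L[X] c, by
    rw [pow_zero, one_mul, ← IsScalarTower.algebraMap_apply]⟩

theorem div_mem_Loc {g : L[X]} (hg : g ≠ 0) (p : L[X]) : ι p / ι g ∈ Loc k g :=
  ⟨1, p, by
    rw [pow_one, mul_div_cancel₀]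
    simpa using hg⟩

theorem Good.mem_Loc {D : Derivation k (RatFunc L) (RatFunc L)} (hD : Good D) {g : L[X]}
    {x : RatFunc L} (hx : x ∈ Loc k g) : D x ∈ Loc k g := by
  obtain ⟨a, p, hp⟩ := hx
  obtain ⟨q, hq, -⟩ := hD p
  obtain ⟨g', hg', -⟩ := hD (g ^ a)
  refine ⟨a + a, g ^ a * q - p * g', ?_⟩
  have h := congrArg D hp
  rw [← map_pow, Derivation.leibniz, hq, hg', smul_eq_mul, smul_eq_mul] at h
  rw [map_sub, map_mul, map_mul, ← h, ← hp, map_pow]
  ring

/-- an element of all `L[t][1/g i]`, `g i` coprime, is a polynomial -/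
theorem exists_poly {α : Type*} [Fintype α] {g : α → L[X]} (hg : Finset.univ.gcd g = 1)
    {x : RatFunc L} (hx : ∀ i, g i ≠ 0 → x ∈ Loc k (g i)) : ∃ p, x = ι p := by
  let J : Ideal L[X] :=
    { carrier := {h | ∃ p, ι h * x = ι p}
      add_mem' := by
        rintro a b ⟨p, hp⟩ ⟨q, hq⟩
        exact ⟨p + q, by rw [map_add, add_mul, hp, hq, map_add]⟩
      zero_mem' := ⟨0, by simp⟩
      smul_mem' := by
        rintro c a ⟨p, hp⟩
        exact ⟨c * p, by rw [smul_eq_mul, map_mul, mul_assoc, hp, map_mul]⟩ }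
  have h1 : ∀ i, g i ∈ J.radical := fun i => by
    by_cases h0 : g i = 0
    · rw [h0]; exact zero_mem _
    · obtain ⟨a, p, hp⟩ := hx i h0
      exact ⟨a, p, by rw [map_pow, hp]⟩
  have h2 : (1 : L[X]) ∈ J.radical := by
    rw [← hg]
    obtain ⟨c, hc⟩ := Finset.gcd_eq_sum_mul Finset.univ g
    rw [hc]
    exact sum_mem fun i _ => Ideal.mul_mem_right _ _ (h1 i)
  obtain ⟨a, p, hp⟩ := h2
  exact ⟨p, by simpa using hp⟩

/-! ### the place at infinity -/

local notation "vi" => RatFunc.inftyValuation L

theorem vi_poly {p : L[X]} (hp : p ≠ 0) : vi (ι p) = exp (p.natDegree : ℤ) :=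
  RatFunc.inftyValuation.polynomial L hp

theorem vi_le_of_degree {p q : L[X]} (h : q.degree ≤ p.degree) : vi (ι q) ≤ vi (ι p) := by
  by_cases hq : q = 0
  · simp [hq]
  have hp : p ≠ 0 := by
    rintro rfl
    exact hq (degree_eq_bot.1 (le_bot_iff.1 h))
  rw [vi_poly hp, vi_poly hq, exp_le_exp]
  exact_mod_cast natDegree_le_natDegree h

theorem one_le_vi {p : L[X]} (hp : p ≠ 0) : 1 ≤ vi (ι p) := by
  rw [vi_poly hp, ← exp_zero, exp_le_exp]
  exact Int.natCast_nonneg _

theorem v_le_of_poly {D : Derivation k (RatFunc L) (RatFunc L)} {c : ℤᵐ⁰}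
    (h : ∀ p : L[X], vi (D (ι p)) ≤ c * vi (ι p)) (x : RatFunc L) : vi (D x) ≤ c * vi x := by
  obtain ⟨p, q, hq, rfl⟩ := IsFractionRing.div_surjective (A := L[X]) x
  have hq0 : ι q ≠ 0 := by simpa using nonZeroDivisors.ne_zero hq
  have hv : vi (ι q) ≠ 0 := by simpa using hq0
  have e : D (ι p / ι q) = (ι q)⁻¹ * D (ι p) - (ι p / ι q) * (ι q)⁻¹ * D (ι q) := by
    rw [Derivation.leibniz_div, smul_eq_mul, smul_eq_mul, smul_eq_mul]
    field_simp
  rw [e]
  refine (Valuation.map_sub _ _ _).trans (max_le ?_ ?_)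
  · rw [map_mul, map_div₀, map_inv₀, div_eq_inv_mul, mul_left_comm]
    exact mul_le_mul_right (h p) _
  · rw [map_mul, map_mul, map_inv₀, mul_assoc, mul_comm c]
    refine mul_le_mul_right ?_ _
    refine (mul_le_mul_right (h q) _).trans (le_of_eq ?_)
    rw [mul_left_comm, inv_mul_cancel₀ hv, mul_one]

theorem Good.v_le {D : Derivation k (RatFunc L) (RatFunc L)} (hD : Good D) (x : RatFunc L) :
    vi (D x) ≤ vi x := by
  have := v_le_of_poly (D := D) (c := 1) (fun p => by
    obtain ⟨q, hq, h⟩ := hD p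
    rw [hq, one_mul]
    exact vi_le_of_degree h) x
  rwa [one_mul] at this

theorem v_dT_le (x : RatFunc L) : vi (dT k L x) ≤ exp (-1) * vi x := by
  refine v_le_of_poly (fun p => ?_) x
  rw [dT_apply]
  by_cases h : derivative p = 0
  · simp [h]
  have hp : p ≠ 0 := by
    rintro rfl
    exact h derivative_zero
  rw [vi_poly h, vi_poly hp, ← exp_add, exp_le_exp]
  have := natDegree_lt_natDegree h (degree_derivative_lt hp)
  omega

theorem v_dT_lt {x : RatFunc L} (hx : vi x ≤ 1) : vi (dT k L x) < 1 := by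
  refine (v_dT_le x).trans_lt ((mul_le_mul_right hx _).trans_lt ?_)
  rw [mul_one, ← exp_zero, exp_lt_exp]
  omega

/-- a determinant with integral entries and one small row is small -/
theorem v_det_lt {K Γ n : Type*} [Field K] [LinearOrderedCommGroupWithZero Γ] [Fintype n]
    [DecidableEq n] (v : Valuation K Γ) (M : Matrix n n K) (h : ∀ i j, v (M i j) ≤ 1) (i₀ : n)
    (h0 : ∀ j, v (M i₀ j) < 1) : v M.det < 1 := by
  rw [← Matrix.det_transpose, Matrix.det_apply']
  refine Valuation.map_sum_lt _ one_ne_zero fun π _ => ?_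
  rw [map_mul, map_prod, ← Finset.mul_prod_erase _ _ (Finset.mem_univ i₀)]
  have h1 : v ((Equiv.Perm.sign π : ℤ) : K) ≤ 1 := by
    rcases Int.units_eq_one_or (Equiv.Perm.sign π) with h | h <;> simp [h]
  have h2 : ∏ i ∈ Finset.univ.erase i₀, v (M.transpose (π i) i) ≤ 1 :=
    Finset.prod_le_one' fun i _ => h _ _
  calc _ ≤ 1 * (v (M i₀ (π i₀)) * 1) := mul_le_mul' h1 (mul_le_mul' le_rfl h2)
    _ < 1 := by simpa using h0 _

end Crest.Agent.X262.Rc72
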